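import Mathlib

/-!
# P015: infinite bounded-step walks on Gaussian primes must leave thin regions around the real axis

For every `D > 0`, an infinite sequence of distinct Gaussian primes with successive distances at
most `D` satisfies `|Im z_k| > log |Re z_k| / (7 (D + 1) log log |Re z_k|)` for infinitely many `k`.
The proof builds explicit walls of composite Gaussian integers: if `X` is the product of the norms
`j^2 + b^2` (`2 <= j <= w + 1`, `0 <= b <= H`), every `X + j + b i` is divisible by `j + b i`.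
-/

open Finset

namespace Vale.Agent.Results.P015.ThinRegion


/-- the wall modulus -/
def Q (w H : ℕ) : ℕ := ∏ j ∈ Finset.Icc 2 (w + 1), ∏ b ∈ Finset.range (H + 1), (j ^ 2 + b ^ 2)

lemma dvd_Q (w H j b : ℕ) (hj : 2 ≤ j) (hj' : j ≤ w + 1) (hb : b ≤ H) : (j ^ 2 + b ^ 2) ∣ Q w H := by
  unfold Q
  have h1 : (j ^ 2 + b ^ 2) ∣ ∏ b ∈ Finset.range (H + 1), (j ^ 2 + b ^ 2) :=
    Finset.dvd_prod_of_mem (fun b => j ^ 2 + b ^ 2) (Finset.mem_range.2 (by omega))
  exact h1.trans (Finset.dvd_prod_of_mem (fun j => ∏ b ∈ Finset.range (H + 1), (j ^ 2 + b ^ 2))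
    (Finset.mem_Icc.2 ⟨hj, hj'⟩))

lemma Q_pos (w H : ℕ) : 0 < Q w H := by
  unfold Q
  refine Finset.prod_pos fun j hj => Finset.prod_pos fun b _ => ?_
  have := (Finset.mem_Icc.1 hj).1
  positivity

/-- a translate of a non-unit `s` by a positive multiple of its norm is not prime -/
lemma not_prime_translate (x j b : ℤ) (hx : 0 < x) (hj : 0 ≤ j) (hN : 2 ≤ j ^ 2 + b ^ 2)
    (hdvd : (j ^ 2 + b ^ 2) ∣ x) : ¬ Irreducible (⟨x + j, b⟩ : GaussianInt) := by
  intro hp
  obtain ⟨c, hc⟩ := hdvd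
  set s : GaussianInt := ⟨j, b⟩ with hs
  set t : GaussianInt := ⟨1 + j * c, - b * c⟩ with ht
  have hfac : (⟨x + j, b⟩ : GaussianInt) = s * t := by
    rw [hs, ht]
    ext
    · simp [Zsqrtd.re_mul]; rw [hc]; ring
    · simp [Zsqrtd.im_mul]; ring
  have hns : s.norm = j ^ 2 + b ^ 2 := by
    rw [hs]; simp [Zsqrtd.norm]; ring
  rcases hp.isUnit_or_isUnit hfac with hu | hu
  · have := Zsqrtd.norm_eq_one_iff.2 hu
    rw [hns] at this
    have h3 : (j ^ 2 + b ^ 2).natAbs = 1 := this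
    omega
  · have h1 := Zsqrtd.norm_eq_one_iff.2 hu
    have h2 : (⟨x + j, b⟩ : GaussianInt).norm = s.norm * t.norm := by rw [hfac, Zsqrtd.norm_mul]
    have h3 : 0 ≤ t.norm := GaussianInt.norm_nonneg t
    have h4 : t.norm = 1 := by omega
    rw [h4, hns, mul_one] at h2
    have h5 : (⟨x + j, b⟩ : GaussianInt).norm = (x + j) ^ 2 + b ^ 2 := by
      simp [Zsqrtd.norm]; ring
    rw [h5] at h2
    nlinarith

/-- no Gaussian prime on the two walls -/
lemma wall (w H : ℕ) (z : GaussianInt) (hz : Irreducible z)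
    (h1 : (Q w H : ℤ) + 2 ≤ |z.re|) (h2 : |z.re| ≤ (Q w H : ℤ) + w + 1) : (H : ℤ) < |z.im| := by
  by_contra hcon
  rw [not_lt] at hcon
  -- reduce to positive real part
  have key : ∀ y : GaussianInt, Irreducible y → (Q w H : ℤ) + 2 ≤ y.re → y.re ≤ (Q w H : ℤ) + w + 1 →
      |y.im| ≤ (H : ℤ) → False := by
    intro y hy g1 g2 g3
    set j : ℤ := y.re - Q w H with hj
    have hj2 : 2 ≤ j := by omega
    have hjw : j ≤ w + 1 := by omega
    have hdvd : (j ^ 2 + y.im ^ 2) ∣ (Q w H : ℤ) := by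
      have hd := dvd_Q w H j.natAbs y.im.natAbs (by omega) (by omega) (by
        have := Int.natCast_natAbs y.im; omega)
      have : ((j.natAbs ^ 2 + y.im.natAbs ^ 2 : ℕ) : ℤ) = j ^ 2 + y.im ^ 2 := by
        push_cast; simp [sq_abs]
      rw [← this]
      exact_mod_cast hd
    have hnp := not_prime_translate (Q w H) j y.im (by exact_mod_cast Q_pos w H) (by omega)
      (by nlinarith [sq_nonneg y.im]) hdvd
    apply hnp
    have : (⟨(Q w H : ℤ) + j, y.im⟩ : GaussianInt) = y := by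
      ext <;> simp [hj]
    rw [this]; exact hy
  rcases le_or_gt 0 z.re with hpos | hneg
  · rw [abs_of_nonneg hpos] at h1 h2
    exact key z hz h1 h2 hcon
  · rw [abs_of_neg hneg] at h1 h2
    refine key (-z) ((Associated.refl z).neg_right.irreducible hz) ?_ ?_ ?_
    · simpa using h1
    · simpa using h2
    · simpa using hcon

lemma confine (w H : ℕ) (z : ℕ → GaussianInt) (hprime : ∀ k, Irreducible (z k))
    (hstep : ∀ k, |(z (k + 1)).re - (z k).re| ≤ (w : ℤ))
    (hreg : ∀ k, (Q w H : ℤ) + 2 ≤ |(z k).re| → |(z k).re| ≤ (Q w H : ℤ) + w + 1 →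
      |(z k).im| ≤ (H : ℤ))
    (h0 : |(z 0).re| ≤ (Q w H : ℤ) + 1) : ∀ k, |(z k).re| ≤ (Q w H : ℤ) + 1 := by
  intro k
  induction k with
  | zero => exact h0
  | succ k ih =>
    by_contra hcon
    rw [not_le] at hcon
    have h1 : |(z (k + 1)).re| ≤ |(z k).re| + w := by
      have := hstep k
      have h2 : |(z (k + 1)).re| ≤ |(z (k + 1)).re - (z k).re| + |(z k).re| := by
        have := abs_add_le ((z (k + 1)).re - (z k).re) ((z k).re)
        simpa using this
      linarith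
    have h3 := wall w H (z (k + 1)) (hprime _) (by omega) (by omega)
    have h4 := hreg (k + 1) (by omega) (by omega)
    omega

lemma finite_box (A B : ℤ) : {z : GaussianInt | |z.re| ≤ A ∧ |z.im| ≤ B}.Finite := by
  have hfin : ((Set.Icc (-A) A) ×ˢ (Set.Icc (-B) B)).Finite :=
    (Set.finite_Icc _ _).prod (Set.finite_Icc _ _)
  refine (hfin.image (fun p : ℤ × ℤ => (⟨p.1, p.2⟩ : GaussianInt))).subset ?_
  intro z hz
  refine ⟨(z.re, z.im), ⟨⟨?_, ?_⟩, ⟨?_, ?_⟩⟩, ?_⟩
  · exact (abs_le.1 hz.1).1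
  · exact (abs_le.1 hz.1).2
  · exact (abs_le.1 hz.2).1
  · exact (abs_le.1 hz.2).2
  · rfl

/-- abstract form: a region whose width on the wall columns is at most the wall height contains no
infinite walk -/
lemma no_walk (D : ℝ) (hD0 : 0 ≤ D) (w : ℕ) (hD : D ≤ w) (F : ℤ → ℝ)
    (hF : ∀ A0 : ℕ, ∃ H : ℕ, A0 ≤ Q w H + 1 ∧
      ∀ t : ℤ, (Q w H : ℤ) + 2 ≤ |t| → |t| ≤ (Q w H : ℤ) + w + 1 → F t ≤ H)
    (z : ℕ → GaussianInt) (hprime : ∀ k, Irreducible (z k)) (hinj : Function.Injective z)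
    (hstep : ∀ k, (((z (k + 1)).re - (z k).re : ℤ) : ℝ) ^ 2 +
      (((z (k + 1)).im - (z k).im : ℤ) : ℝ) ^ 2 ≤ D ^ 2)
    (hreg : ∀ k, ((|(z k).im| : ℤ) : ℝ) ≤ F (z k).re) : False := by
  obtain ⟨H, hA, hH⟩ := hF (z 0).re.natAbs
  have hstep' : ∀ k, |(z (k + 1)).re - (z k).re| ≤ (w : ℤ) := by
    intro k
    have h1 := hstep k
    have h2 : (((z (k + 1)).re - (z k).re : ℤ) : ℝ) ^ 2 ≤ (w : ℝ) ^ 2 := by
      have : D ^ 2 ≤ (w : ℝ) ^ 2 := pow_le_pow_left₀ hD0 hD 2
      nlinarith [sq_nonneg (((z (k + 1)).im - (z k).im : ℤ) : ℝ)]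
    have h3 : |(((z (k + 1)).re - (z k).re : ℤ) : ℝ)| ≤ (w : ℝ) :=
      abs_le_of_sq_le_sq h2 (by positivity)
    exact_mod_cast h3
  have hconf := confine w H z hprime hstep' (by
    intro k g1 g2
    have h1 := hH (z k).re g1 g2
    have h2 := hreg k
    have : ((|(z k).im| : ℤ) : ℝ) ≤ (H : ℝ) := le_trans h2 h1
    exact_mod_cast this) (by
    have : ((z 0).re.natAbs : ℤ) ≤ (Q w H : ℤ) + 1 := by exact_mod_cast hA
    rwa [Int.natCast_natAbs] at this)
  -- bound for the imaginary parts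
  set X : ℤ := (Q w H : ℤ) + 1 with hX
  set B : ℕ := ∑ t ∈ Finset.Icc (-X) X, ⌈|F t|⌉₊ with hB
  have hrange : Set.range z ⊆ {y : GaussianInt | |y.re| ≤ X ∧ |y.im| ≤ (B : ℤ)} := by
    rintro _ ⟨k, rfl⟩
    refine ⟨hconf k, ?_⟩
    have h1 := hreg k
    have hmem : (z k).re ∈ Finset.Icc (-X) X := Finset.mem_Icc.2 (abs_le.1 (hconf k))
    have h2 : ⌈|F (z k).re|⌉₊ ≤ B :=
      Finset.single_le_sum (f := fun t => ⌈|F t|⌉₊) (fun _ _ => Nat.zero_le _) hmem
    have h3 : F (z k).re ≤ (B : ℝ) := by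
      calc F (z k).re ≤ |F (z k).re| := le_abs_self _
        _ ≤ (⌈|F (z k).re|⌉₊ : ℝ) := Nat.le_ceil _
        _ ≤ (B : ℝ) := by exact_mod_cast h2
    have : ((|(z k).im| : ℤ) : ℝ) ≤ (B : ℝ) := le_trans h1 h3
    exact_mod_cast this
  exact (Set.infinite_range_of_injective hinj) ((finite_box X B).subset hrange)

lemma Q_ge (w H : ℕ) (hw : 1 ≤ w) : 4 + H ^ 2 ≤ Q w H := by
  have := Nat.le_of_dvd (Q_pos w H) (dvd_Q w H 2 H le_rfl (by omega) le_rfl)
  simpa using this

lemma Q_le (w H : ℕ) (hw : 1 ≤ w) (hH : w + 1 ≤ H) : Q w H + w + 1 ≤ H ^ (7 * w * H) := by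
  have hH2 : 2 ≤ H := by omega
  have h1 : Q w H ≤ (H ^ 3) ^ (w * (H + 1)) := by
    unfold Q
    calc ∏ j ∈ Finset.Icc 2 (w + 1), ∏ b ∈ Finset.range (H + 1), (j ^ 2 + b ^ 2)
        ≤ ∏ j ∈ Finset.Icc 2 (w + 1), ∏ b ∈ Finset.range (H + 1), H ^ 3 := by
          refine Finset.prod_le_prod (fun _ _ => Nat.zero_le _) fun j hj => ?_
          refine Finset.prod_le_prod (fun _ _ => Nat.zero_le _) fun b hb => ?_
          have hj' := (Finset.mem_Icc.1 hj).2
          have hb' := Finset.mem_range.1 hb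
          have e1 : j ^ 2 ≤ H ^ 2 := Nat.pow_le_pow_left (by omega) 2
          have e2 : b ^ 2 ≤ H ^ 2 := Nat.pow_le_pow_left (by omega) 2
          calc j ^ 2 + b ^ 2 ≤ 2 * H ^ 2 := by omega
            _ ≤ H * H ^ 2 := Nat.mul_le_mul_right _ hH2
            _ = H ^ 3 := by ring
      _ = (H ^ 3) ^ (w * (H + 1)) := by
          simp only [Finset.prod_const, Finset.card_range, Nat.card_Icc]
          rw [← pow_mul]
          congr 1
          have : w + 1 + 1 - 2 = w := by omega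
          rw [this]; ring
  rw [← pow_mul] at h1
  have h2 : w + 1 ≤ H ^ (3 * (w * (H + 1))) := by
    calc w + 1 ≤ H := hH
      _ = H ^ 1 := (pow_one H).symm
      _ ≤ H ^ (3 * (w * (H + 1))) := Nat.pow_le_pow_right (by omega) (by nlinarith)
  calc Q w H + w + 1 ≤ 2 * H ^ (3 * (w * (H + 1))) := by omega
    _ ≤ H * H ^ (3 * (w * (H + 1))) := Nat.mul_le_mul_right _ hH2
    _ = H ^ (3 * (w * (H + 1)) + 1) := by rw [pow_succ]; ring
    _ ≤ H ^ (7 * w * H) := Nat.pow_le_pow_right (by omega) (by nlinarith)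

lemma F_le (w H T : ℕ) (hw : 1 ≤ w) (hH : 5 ≤ H) (hT1 : 21 ≤ T) (hT2 : T ≤ H ^ (7 * w * H)) :
    Real.log T / Real.log (Real.log T) ≤ 7 * w * H := by
  have hw' : (1 : ℝ) ≤ w := by exact_mod_cast hw
  have hH' : (5 : ℝ) ≤ H := by exact_mod_cast hH
  have hT' : (21 : ℝ) ≤ T := by exact_mod_cast hT1
  have he : Real.exp 1 < 2.7182818286 := Real.exp_one_lt_d9
  have he3 : Real.exp 3 ≤ 21 := by
    have : Real.exp 3 = Real.exp 1 ^ 3 := by
      rw [Real.exp_one_pow]; norm_num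
    rw [this]
    calc Real.exp 1 ^ 3 ≤ 2.7182818286 ^ 3 := by
          apply pow_le_pow_left₀ (Real.exp_pos 1).le he.le
      _ ≤ 21 := by norm_num
  set u : ℝ := Real.log T with hu
  have hu3 : 3 ≤ u := by
    rw [hu, Real.le_log_iff_exp_le (by linarith)]; linarith
  have hlogH : 1 < Real.log H := by
    rw [Real.lt_log_iff_exp_lt (by linarith)]; linarith
  set U : ℝ := 7 * w * H * Real.log H with hU
  have huU : u ≤ U := by
    have h1 : (T : ℝ) ≤ (H : ℝ) ^ (7 * w * H) := by exact_mod_cast hT2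
    have h2 : Real.log T ≤ Real.log ((H : ℝ) ^ (7 * w * H)) := Real.log_le_log (by linarith) h1
    rw [Real.log_pow] at h2
    rw [hu, hU]; push_cast at h2; linarith
  have hUH : (H : ℝ) ≤ U := by
    rw [hU]
    have : (1 : ℝ) ≤ 7 * w * Real.log H := by nlinarith
    nlinarith
  have hU0 : 0 < U := by linarith
  have hlogU : Real.log H ≤ Real.log U := Real.log_le_log (by linarith) hUH
  have hlogu : 0 < Real.log u := Real.log_pos (by linarith)
  have hanti := Real.log_div_self_antitoneOn (a := u) (b := U)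
    (show Real.exp 1 ≤ u by linarith) (show Real.exp 1 ≤ U by linarith) huU
  -- log U / U ≤ log u / u
  have h3 : u / Real.log u ≤ U / Real.log U := by
    have hA : 0 < Real.log U / U := div_pos (by linarith) hU0
    have := one_div_le_one_div_of_le hA hanti
    rwa [one_div_div, one_div_div] at this
  calc u / Real.log u ≤ U / Real.log U := h3
    _ ≤ U / Real.log H := by
        apply div_le_div_of_nonneg_left hU0.le (by linarith) hlogU
    _ = 7 * w * H := by
        rw [hU]; field_simp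

/-- Every infinite walk on distinct Gaussian primes with steps of length at most `D` leaves,
infinitely often, the region `|Im z| <= log |Re z| / (7 (D + 1) log log |Re z|)`. -/
lemma main_re (D : ℝ) (hD : 0 < D) (z : ℕ → GaussianInt) (hprime : ∀ k, Irreducible (z k))
    (hinj : Function.Injective z)
    (hstep : ∀ k, (((z (k + 1)).re - (z k).re : ℤ) : ℝ) ^ 2 +
      (((z (k + 1)).im - (z k).im : ℤ) : ℝ) ^ 2 ≤ D ^ 2) :
    ∀ K : ℕ, ∃ k, K ≤ k ∧
      Real.log |((z k).re : ℝ)| / (7 * (D + 1) * Real.log (Real.log |((z k).re : ℝ)|)) <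
        |((z k).im : ℝ)| := by
  intro K
  by_contra hcon
  have hcon' : ∀ k, K ≤ k → |((z k).im : ℝ)| ≤
      Real.log |((z k).re : ℝ)| / (7 * (D + 1) * Real.log (Real.log |((z k).re : ℝ)|)) := by
    intro k hk
    by_contra h
    exact hcon ⟨k, hk, not_le.1 h⟩
  set w : ℕ := ⌈D⌉₊ with hw
  have hw1 : 1 ≤ w := Nat.ceil_pos.2 hD
  have hDw : D ≤ w := Nat.le_ceil D
  have hwD : (w : ℝ) ≤ D + 1 := (Nat.ceil_lt_add_one hD.le).le
  set F : ℤ → ℝ := fun t =>
    Real.log |(t : ℝ)| / (7 * (D + 1) * Real.log (Real.log |(t : ℝ)|)) with hF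
  refine no_walk D hD.le w hDw F ?_ (fun k => z (K + k)) (fun k => hprime _)
    (fun i j hij => by simpa using hinj hij) (fun k => by simpa [add_assoc] using hstep (K + k))
    (fun k => by
      have := hcon' (K + k) (Nat.le_add_right _ _)
      simpa [hF] using this)
  intro A0
  set H : ℕ := max A0 (max (w + 1) 5) with hH
  have hHA : A0 ≤ H := le_max_left _ _
  have hHw : w + 1 ≤ H := le_trans (le_max_left _ _) (le_max_right _ _)
  have hH5 : 5 ≤ H := le_trans (le_max_right _ _) (le_max_right _ _)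
  have hQge := Q_ge w H hw1
  have hQle := Q_le w H hw1 hHw
  refine ⟨H, by nlinarith, ?_⟩
  intro t h1 h2
  set T : ℕ := t.natAbs with hT
  have hTt : (T : ℤ) = |t| := by rw [hT]; exact Int.natCast_natAbs t
  have hTr : (T : ℝ) = |(t : ℝ)| := by
    have : ((T : ℤ) : ℝ) = ((|t| : ℤ) : ℝ) := by rw [hTt]
    simpa using this
  have hT1 : 21 ≤ T := by
    have : (21 : ℤ) ≤ (T : ℤ) := by
      rw [hTt]
      have : (4 : ℤ) + (H : ℤ) ^ 2 ≤ (Q w H : ℤ) := by exact_mod_cast hQge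
      have h5 : (5 : ℤ) ≤ (H : ℤ) := by exact_mod_cast hH5
      nlinarith
    exact_mod_cast this
  have hT2 : T ≤ H ^ (7 * w * H) := by
    have : (T : ℤ) ≤ ((Q w H + w + 1 : ℕ) : ℤ) := by
      rw [hTt]; push_cast; linarith
    have : T ≤ Q w H + w + 1 := by exact_mod_cast this
    exact le_trans this hQle
  have hmain := F_le w H T hw1 hH5 hT1 hT2
  have hD1 : 0 < 7 * (D + 1) := by linarith
  simp only [hF]
  rw [← hTr]
  have e : Real.log T / (7 * (D + 1) * Real.log (Real.log T)) =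
      (Real.log T / Real.log (Real.log T)) / (7 * (D + 1)) := by
    rw [div_div, mul_comm]
  rw [e, div_le_iff₀ hD1]
  have hH0 : (0 : ℝ) ≤ H := by positivity
  calc Real.log T / Real.log (Real.log T) ≤ 7 * w * H := hmain
    _ ≤ H * (7 * (D + 1)) := by nlinarith

/-- Every infinite walk on distinct Gaussian primes with steps of length at most `D` leaves,
infinitely often, each of the two thin regions
`|Im z| <= log |Re z| / (7 (D + 1) log log |Re z|)` and
`|Re z| <= log |Im z| / (7 (D + 1) log log |Im z|)`. -/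
theorem result (D : ℝ) (hD : 0 < D) (z : ℕ → GaussianInt) (hprime : ∀ k, Irreducible (z k))
    (hinj : Function.Injective z)
    (hstep : ∀ k, (((z (k + 1)).re - (z k).re : ℤ) : ℝ) ^ 2 +
      (((z (k + 1)).im - (z k).im : ℤ) : ℝ) ^ 2 ≤ D ^ 2) :
    (∀ K : ℕ, ∃ k, K ≤ k ∧
      Real.log |((z k).re : ℝ)| / (7 * (D + 1) * Real.log (Real.log |((z k).re : ℝ)|)) <
        |((z k).im : ℝ)|) ∧
    (∀ K : ℕ, ∃ k, K ≤ k ∧
      Real.log |((z k).im : ℝ)| / (7 * (D + 1) * Real.log (Real.log |((z k).im : ℝ)|)) <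
        |((z k).re : ℝ)|) := by
  refine ⟨main_re D hD z hprime hinj hstep, ?_⟩
  have hI : IsUnit (⟨0, 1⟩ : GaussianInt) := by
    rw [← Zsqrtd.norm_eq_one_iff]; simp [Zsqrtd.norm]
  have hmul : ∀ y : GaussianInt, (⟨0, 1⟩ : GaussianInt) * y = ⟨-y.im, y.re⟩ := by
    intro y; ext <;> simp [Zsqrtd.re_mul, Zsqrtd.im_mul]
  have h := main_re D hD (fun k => (⟨-(z k).im, (z k).re⟩ : GaussianInt))
    (fun k => by rw [← hmul]; exact (irreducible_isUnit_mul hI).2 (hprime k))
    (fun i j hij => by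
      apply hinj
      have h1 := congrArg Zsqrtd.re hij
      have h2 := congrArg Zsqrtd.im hij
      simp only [neg_inj] at h1 h2
      ext <;> assumption)
    (fun k => by
      have := hstep k
      push_cast at this ⊢
      nlinarith)
  intro K
  obtain ⟨k, hk, hlt⟩ := h K
  refine ⟨k, hk, ?_⟩
  simpa using hlt

end Vale.Agent.Results.P015.ThinRegion
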